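import Vale.Agent.P181.FL.Defs

set_option autoImplicit false

/-!
# P181, FL2: flat shapes up to `lam_0 ≤ 2 b - 8 q² ln (2 q a)`, any parity (helper172): literals
-/

open scoped BigOperators

namespace Vale.Agent.P181.FL2

open Finset
open Vale.Agent.P181.H280 (plethMult)
open Vale.Agent.P181.FL (Pos Cell HWW ColZ CapStmt)

/-- The permutation of the positions given by a permutation of the blocks. -/
abbrev blk {N q : ℕ} (m : ℕ) (g : Equiv.Perm (Fin N × Fin q)) : Equiv.Perm (Pos N q m) :=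
  Equiv.prodCongr g (Equiv.refl (Fin m))

/-- The permutation respects the slots. -/
def Slot {N q m : ℕ} (e : Equiv.Perm (Pos N q m)) : Prop :=
  ∀ p p' : Pos N q m, p.1.1 = p'.1.1 → (e p).1.1 = (e p').1.1

/-- **(DOM)** functions on words in `M` odd letters which kill all the `q`-th powers are zero. -/
def DomG (N q m M : ℕ) : Prop :=
  ∀ kap : (Pos N q m → Fin M) → ℂ,
    (∀ e : Equiv.Perm (Pos N q m), Slot e → ∀ c,
      kap (fun p => c (e p)) = ((Equiv.Perm.sign e : ℤ) : ℂ) * kap c) →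
    (∀ c : Pos N q m → Fin M, ∑ g : Equiv.Perm (Fin N × Fin q),
      ((Equiv.Perm.sign (blk m g) : ℤ) : ℂ) * kap (fun p => c (blk m g p)) = 0) →
    ∀ c, kap c = 0

/-- **(WORD)** the same for even letters and a highest weight vector of a flat shape. -/
def WordG (N q m n M : ℕ) : Prop :=
  ∀ (lam : Fin n → ℕ) (f : (Pos N q m → Fin n) → ℂ),
    Antitone lam → (∀ i, lam i ≤ M) → HWW lam f →
    (∀ e : Equiv.Perm (Pos N q m), Slot e → ∀ w, f (fun p => w (e p)) = f w) →
    (∀ w : Pos N q m → Fin n,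
      ∑ g : Equiv.Perm (Fin N × Fin q), f (fun p => w (blk m g p)) = 0) →
    ∀ w, f w = 0

/-- **(TR)** from words in `n` even letters to words in `M` odd letters. -/
def TrG : Prop :=
  CapStmt → ∀ N q m n M : ℕ, DomG N q m M → WordG N q m n M

/-- **(WRD)** from words to multiplicities. -/
def WrdG : Prop :=
  ∀ a q M : ℕ, 1 ≤ q → (∀ n, WordG a q a n M) → ∀ (n : ℕ) (lam : Fin n → ℕ), (∀ i, lam i ≤ M) →
    plethMult a (q * a) n lam ≤ plethMult (q * a) a n lam

/-- **(WRDN)** the same for any number of slots (only if it costs nothing). -/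
def WrdN : Prop :=
  ∀ N q m M : ℕ, 1 ≤ q → (∀ n, WordG N q m n M) → ∀ (n : ℕ) (lam : Fin n → ℕ), (∀ i, lam i ≤ M) →
    plethMult N (q * m) n lam ≤ plethMult (q * N) m n lam

/-- **(DOM2)** the disjointness argument (helper172). -/
def Dom2Stmt : Prop :=
  ∀ N q m M : ℕ, 1 ≤ q →
    (M : ℝ) + 8 * (q : ℝ) ^ 2 * Real.log (2 * q * N) ≤ 2 * q * m → DomG N q m M

/-- **(FLAT2)** Foulkes' inequality for flat shapes, `b = q a`. -/
def Flat2Stmt : Prop :=
  ∀ (a q M n : ℕ) (lam : Fin n → ℕ), 1 ≤ q →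
    (M : ℝ) + 8 * (q : ℝ) ^ 2 * Real.log (2 * q * a) ≤ 2 * q * a → (∀ i, lam i ≤ M) →
    plethMult a (q * a) n lam ≤ plethMult (q * a) a n lam

end Vale.Agent.P181.FL2
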